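import Vale.Agent.P154.Ferro4.XCell

/-! P154, four states: kernel checks of cells of the subadditivity certificate. -/

namespace Vale.Agent.P154.Ferro4

open PolyCheck XCheck

def xTree_0_6 : Fin 5 → Fin 5 → ACut := ![![(.cut 0 (.leaf 1) (.cut 1 (.leaf 3) (.cut 0 (.leaf 1) (.cut 1 (.cut 0 (.leaf 1) (.leaf 0)) (.cut 0 (.leaf 1) (.cut 1 (.cut 0 (.leaf 1) (.cut 1 (.leaf 0) (.leaf 4))) (.leaf 4))))))), (.cut 0 (.leaf 1) (.cut 0 (.leaf 1) (.cut 1 (.leaf 4) (.cut 0 (.leaf 1) (.leaf 0))))), (.cut 0 (.leaf 1) (.cut 1 (.cut 0 (.leaf 1) (.cut 1 (.leaf 4) (.cut 0 (.leaf 1) (.cut 1 (.leaf 4) (.cut 0 (.leaf 1) (.cut 1 (.cut 0 (.leaf 1) (.cut 1 (.leaf 4) (.cut 0 (.cut 1 (.leaf 4) (.leaf 0)) (.cut 1 (.leaf 4) (.leaf 0))))) (.leaf 0))))))) (.cut 0 (.leaf 1)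 (.cut 1 (.cut 0 (.leaf 1) (.leaf 0)) (.leaf 3))))), (.cut 1 (.leaf 3) (.cut 0 (.leaf 1) (.cut 1 (.cut 0 (.leaf 1) (.leaf 0)) (.leaf 3)))), (.leaf 3)],
  ![(.cut 1 (.leaf 3) (.cut 1 (.cut 0 (.cut 1 (.leaf 3) (.leaf 0)) (.leaf 1)) (.cut 0 (.cut 1 (.cut 0 (.cut 1 (.leaf 0) (.leaf 4)) (.leaf 1)) (.leaf 4)) (.leaf 1)))), (.cut 0 (.cut 1 (.leaf 4) (.leaf 0)) (.leaf 1)), (.cut 1 (.cut 1 (.leaf 4) (.cut 0 (.cut 1 (.leaf 4) (.cut 0 (.cut 1 (.cut 0 (.cut 1 (.leaf 4) (.cut 0 (.cut 1 (.leaf 4) (.leaf 0)) (.leaf 0))) (.leaf 1)) (.leaf 0)) (.leaf 1))) (.leaf 1))) (.leaf 0)), (.cut 1 (.leaf 3) (.leaf 0)), (.leaf 3)],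
  ![(.cut 0 (.cut 1 (.leaf 3) (.cut 0 (.cut 1 (.cut 0 (.leaf 0) (.leaf 1)) (.cut 0 (.cut 1 (.cut 0 (.cut 1 (.leaf 0) (.leaf 4)) (.leaf 1)) (.leaf 4)) (.leaf 1))) (.leaf 1))) (.leaf 1)), (.cut 0 (.cut 0 (.cut 1 (.leaf 4) (.leaf 0)) (.leaf 1)) (.leaf 1)), (.cut 0 (.cut 1 (.cut 0 (.cut 1 (.leaf 4) (.cut 0 (.cut 1 (.leaf 4) (.cut 0 (.cut 1 (.cut 0 (.cut 1 (.leaf 4) (.cut 0 (.cut 1 (.leaf 4) (.leaf 0)) (.cut 1 (.leaf 4) (.leaf 0)))) (.cut 1 (.leaf 4) (.cut 0 (.cut 1 (.leaf 4) (.leaf 0)) (.leaf 1)))) (.leaf 0)) (.leaf 1))) (.leaf 1))) (.leaf 1)) (.cut 0 (.leaf 0) (.leaf 1))) (.leaf 1)), (.cut 1 (.leaf 3) (.cut 0 (.leaf 0) (.leaf 1))), (.leaf 3)],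
  ![(.cut 0 (.leaf 1) (.cut 0 (.leaf 1) (.leaf 1))), (.cut 0 (.leaf 1) (.cut 0 (.leaf 1) (.leaf 1))), (.cut 0 (.leaf 1) (.cut 0 (.leaf 1) (.leaf 1))), (.cut 0 (.leaf 1) (.cut 1 (.leaf 3) (.cut 0 (.leaf 1) (.leaf 1)))), (.leaf 3)],
  ![(.leaf 1), (.leaf 1), (.leaf 1), (.leaf 1), (.leaf 1)]]

def xTree_1_7 : Fin 5 → Fin 5 → ACut := ![![(.cut 0 (.leaf 1) (.cut 1 (.leaf 3) (.cut 0 (.leaf 1) (.cut 1 (.cut 0 (.leaf 1) (.cut 1 (.leaf 3) (.cut 0 (.leaf 1) (.cut 1 (.cut 0 (.leaf 0) (.cut 1 (.cut 0 (.leaf 0) (.leaf 2)) (.cut 0 (.leaf 0) (.leaf 2)))) (.leaf 4))))) (.leaf 4))))), (.cut 0 (.leaf 1) (.cut 0 (.leaf 1) (.cut 1 (.leaf 4) (.cut 0 (.leaf 1) (.cut 1 (.leaf 4) (.cut 0 (.leaf 1) (.cut 1 (.leaf 4) (.cut 0 (.leaf 0) (.cut 1 (.leaf 4) (.cut 0 (.leaf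 0) (.leaf 2))))))))))), (.cut 0 (.leaf 1) (.cut 1 (.leaf 4) (.cut 0 (.leaf 1) (.cut 1 (.cut 0 (.leaf 1) (.cut 1 (.cut 0 (.leaf 1) (.cut 1 (.cut 0 (.leaf 0) (.cut 1 (.leaf 4) (.cut 0 (.leaf 0) (.leaf 2)))) (.cut 0 (.leaf 0) (.cut 1 (.cut 0 (.leaf 0) (.leaf 2)) (.cut 0 (.leaf 0) (.leaf 2)))))) (.cut 0 (.leaf 1) (.cut 1 (.cut 0 (.leaf 0) (.cut 1 (.cut 0 (.leaf 0) (.leaf 2)) (.leaf 3))) (.leaf 3))))) (.leaf 3))))), (.cut 1 (.leaf 3) (.cut 0 (.leaf 1) (.cut 1 (.cut 0 (.leaf 1) (.cut 1 (.cut 0 (.leaf 1) (.cut 1 (.cut 0 (.leaf 1) (.cut 1 (.leaf 3) (.cut 0 (.leaf 0) (.cut 1 (.cut 0 (.leaf 0) (.leaf 2)) (.cut 0 (.leaf 0) (.leaf 2)))))) (.cut 0 (.leaf 1) (.cut 1 (.cut 0 (.leaf 0) (.cut 1 (.cut 0 (.leaf 0) (.leaf 2)) (.cut 0 (.leaf 0) (.leaf 2)))) (.cut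 0 (.leaf 0) (.cut 1 (.cut 0 (.leaf 0) (.leaf 2)) (.cut 0 (.leaf 0) (.leaf 2)))))))) (.cut 0 (.leaf 1) (.cut 1 (.cut 0 (.leaf 1) (.cut 1 (.cut 0 (.leaf 0) (.cut 1 (.cut 0 (.leaf 0) (.leaf 2)) (.cut 0 (.leaf 0) (.leaf 2)))) (.cut 0 (.leaf 0) (.cut 1 (.cut 0 (.leaf 0) (.leaf 2)) (.cut 0 (.leaf 0) (.leaf 2)))))) (.cut 0 (.leaf 1) (.cut 1 (.cut 0 (.leaf 0) (.cut 1 (.cut 0 (.leaf 0) (.leaf 2)) (.cut 0 (.leaf 0) (.leaf 2)))) (.cut 0 (.leaf 0) (.cut 1 (.cut 0 (.leaf 0) (.leaf 2)) (.cut 0 (.leaf 0) (.leaf 2)))))))))) (.cut 0 (.leaf 1) (.cut 1 (.cut 0 (.leaf 1) (.cut 1 (.cut 0 (.leaf 1) (.cut 1 (.cut 0 (.leaf 0) (.cut 1 (.cut 0 (.leaf 0) (.leaf 2)) (.cut 0 (.leaf 0) (.leaf 2)))) (.cut 0 (.leaf 0) (.cut 1 (.cut 0 (.leaf 0) (.leaf 2)) (.leaf 3))))) (.leaf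 3))) (.leaf 3)))))), (.leaf 3)],
  ![(.cut 1 (.leaf 3) (.cut 1 (.cut 0 (.cut 1 (.leaf 3) (.cut 0 (.cut 1 (.cut 0 (.cut 1 (.cut 0 (.leaf 2) (.leaf 0)) (.cut 0 (.leaf 2) (.leaf 0))) (.leaf 0)) (.leaf 4)) (.leaf 1))) (.leaf 1)) (.leaf 4))), (.cut 0 (.cut 1 (.leaf 4) (.cut 0 (.cut 1 (.leaf 4) (.cut 0 (.cut 1 (.leaf 4) (.cut 0 (.leaf 2) (.leaf 0))) (.leaf 0))) (.leaf 1))) (.leaf 1)), (.cut 1 (.leaf 4) (.cut 1 (.cut 0 (.cut 1 (.cut 0 (.cut 1 (.cut 0 (.cut 1 (.leaf 4) (.cut 0 (.leaf 2) (.leaf 0))) (.leaf 0)) (.cut 0 (.cut 1 (.cut 0 (.leaf 2) (.leaf 0)) (.cut 0 (.leaf 2) (.leaf 0))) (.leaf 0))) (.leaf 1)) (.cut 0 (.cut 1 (.cut 0 (.cut 1 (.cut 0 (.leaf 2) (.leaf 0)) (.leaf 3)) (.leaf 0)) (.leaf 3)) (.leaf 1))) (.leaf 1)) (.leaf 3))), (.cut 1 (.leaf 3)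 (.cut 1 (.cut 1 (.cut 0 (.cut 1 (.cut 0 (.cut 1 (.leaf 3) (.cut 0 (.cut 1 (.cut 0 (.leaf 2) (.leaf 0)) (.cut 0 (.leaf 2) (.leaf 0))) (.leaf 0))) (.leaf 1)) (.cut 0 (.cut 1 (.cut 0 (.cut 1 (.cut 0 (.leaf 2) (.leaf 0)) (.cut 0 (.leaf 2) (.leaf 0))) (.leaf 0)) (.cut 0 (.cut 1 (.cut 0 (.leaf 2) (.leaf 0)) (.cut 0 (.leaf 2) (.leaf 0))) (.leaf 0))) (.leaf 1))) (.leaf 1)) (.cut 0 (.cut 1 (.cut 0 (.cut 1 (.cut 0 (.cut 1 (.cut 0 (.leaf 2) (.leaf 0)) (.cut 0 (.leaf 2) (.leaf 0))) (.leaf 0)) (.cut 0 (.cut 1 (.cut 0 (.leaf 2) (.leaf 0)) (.cut 0 (.leaf 2) (.leaf 0))) (.leaf 0))) (.leaf 1)) (.cut 0 (.cut 1 (.cut 0 (.cut 1 (.cut 0 (.leaf 2) (.leaf 0)) (.cut 0 (.leaf 2) (.leaf 0))) (.leaf 0)) (.cut 0 (.cut 1 (.cut 0 (.leaf 2) (.leaf 0)) (.cut 0 (.leaf 2) (.leaf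 0))) (.leaf 0))) (.leaf 1))) (.leaf 1))) (.cut 1 (.cut 0 (.cut 1 (.cut 0 (.cut 1 (.cut 0 (.cut 1 (.cut 0 (.leaf 2) (.leaf 0)) (.cut 0 (.leaf 2) (.leaf 0))) (.leaf 0)) (.cut 0 (.cut 1 (.cut 0 (.leaf 2) (.leaf 0)) (.leaf 3)) (.leaf 0))) (.leaf 1)) (.leaf 3)) (.leaf 1)) (.leaf 3)))), (.leaf 3)],
  ![(.cut 0 (.cut 1 (.leaf 3) (.cut 0 (.cut 1 (.cut 0 (.cut 1 (.leaf 3) (.cut 0 (.cut 1 (.cut 0 (.leaf 2) (.leaf 0)) (.leaf 4)) (.leaf 0))) (.leaf 1)) (.leaf 4)) (.leaf 1))) (.leaf 1)), (.cut 0 (.cut 0 (.cut 1 (.leaf 4) (.cut 0 (.cut 1 (.leaf 4) (.cut 0 (.cut 1 (.leaf 4) (.cut 0 (.leaf 2) (.leaf 0))) (.leaf 0))) (.leaf 1))) (.leaf 1)) (.leaf 1)), (.cut 0 (.cut 1 (.leaf 4) (.cut 0 (.cut 1 (.cut 0 (.cut 1 (.cut 0 (.cut 1 (.cut 0 (.leaf 2) (.leaf 0)) (.cut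 0 (.leaf 2) (.leaf 0))) (.leaf 0)) (.cut 0 (.cut 1 (.cut 0 (.leaf 2) (.leaf 0)) (.leaf 3)) (.leaf 0))) (.leaf 1)) (.leaf 3)) (.leaf 1))) (.leaf 1)), (.cut 1 (.leaf 3) (.cut 0 (.cut 1 (.cut 0 (.cut 1 (.cut 0 (.cut 1 (.cut 0 (.cut 1 (.leaf 3) (.cut 0 (.leaf 2) (.leaf 0))) (.leaf 0)) (.cut 0 (.cut 1 (.cut 0 (.leaf 2) (.leaf 0)) (.cut 0 (.leaf 2) (.leaf 0))) (.leaf 0))) (.leaf 1)) (.cut 0 (.cut 1 (.cut 0 (.cut 1 (.cut 0 (.leaf 2) (.leaf 0)) (.cut 0 (.leaf 2) (.leaf 0))) (.leaf 0)) (.cut 0 (.cut 1 (.cut 0 (.leaf 2) (.leaf 0)) (.cut 0 (.leaf 2) (.leaf 0))) (.leaf 0))) (.leaf 1))) (.leaf 1)) (.cut 0 (.cut 1 (.cut 0 (.cut 1 (.cut 0 (.cut 1 (.cut 0 (.leaf 2) (.leaf 0)) (.cut 0 (.leaf 2) (.leaf 0))) (.leaf 0)) (.leaf 3)) (.leaf 1)) (.leaf 3)) (.leaf 1)))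 (.leaf 1))), (.leaf 3)],
  ![(.cut 0 (.leaf 1) (.cut 0 (.leaf 1) (.leaf 1))), (.cut 0 (.leaf 1) (.cut 0 (.leaf 1) (.leaf 1))), (.cut 0 (.leaf 1) (.cut 0 (.leaf 1) (.leaf 1))), (.cut 0 (.leaf 1) (.cut 1 (.leaf 3) (.cut 0 (.leaf 1) (.leaf 1)))), (.leaf 3)],
  ![(.leaf 1), (.leaf 1), (.leaf 1), (.leaf 1), (.leaf 1)]]

def xTree_3_15 : Fin 5 → Fin 5 → ACut := ![![(.cut 0 (.leaf 1) (.cut 1 (.cut 0 (.leaf 1) (.cut 1 (.cut 0 (.cut 1 (.cut 0 (.leaf 1) (.leaf 0)) (.cut 0 (.leaf 1) (.cut 1 (.cut 0 (.leaf 1) (.cut 1 (.leaf 0) (.cut 0 (.leaf 1) (.cut 1 (.leaf 0) (.leaf 4))))) (.leaf 4)))) (.cut 1 (.cut 0 (.leaf 0) (.leaf 2)) (.cut 0 (.cut 1 (.cut 0 (.leaf 0) (.cut 1 (.leaf 0) (.cut 0 (.cut 1 (.leaf 0) (.leaf 4)) (.leaf 2)))) (.leaf 4)) (.leaf 2)))) (.leaf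 4))) (.leaf 4))), (.leaf 4), (.leaf 4), (.cut 1 (.cut 0 (.leaf 1) (.cut 1 (.cut 0 (.leaf 1) (.cut 1 (.cut 0 (.cut 1 (.leaf 3) (.cut 0 (.leaf 1) (.cut 1 (.leaf 0) (.cut 0 (.leaf 1) (.leaf 0))))) (.cut 1 (.leaf 3) (.cut 0 (.leaf 0) (.leaf 2)))) (.leaf 4))) (.leaf 4))) (.leaf 4)), (.cut 1 (.leaf 4) (.cut 0 (.leaf 1) (.cut 1 (.cut 0 (.leaf 1) (.cut 1 (.leaf 4) (.cut 0 (.cut 1 (.leaf 4) (.cut 0 (.leaf 1) (.leaf 0))) (.cut 1 (.leaf 4) (.cut 0 (.leaf 0) (.leaf 2)))))) (.cut 0 (.leaf 1) (.cut 1 (.cut 0 (.cut 1 (.cut 0 (.leaf 1) (.leaf 0)) (.cut 0 (.leaf 1) (.leaf 0))) (.cut 1 (.cut 0 (.leaf 0) (.leaf 2)) (.cut 0 (.leaf 0) (.leaf 2)))) (.leaf 3))))))],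
  ![(.cut 1 (.cut 1 (.cut 0 (.cut 1 (.cut 0 (.leaf 2) (.leaf 0)) (.cut 0 (.leaf 2) (.cut 1 (.leaf 0) (.leaf 4)))) (.leaf 1)) (.leaf 4)) (.leaf 4)), (.leaf 4), (.leaf 4), (.cut 1 (.cut 1 (.cut 1 (.cut 0 (.cut 1 (.leaf 3) (.cut 0 (.leaf 2) (.leaf 0))) (.leaf 1)) (.leaf 4)) (.leaf 4)) (.leaf 4)), (.cut 1 (.leaf 4) (.cut 1 (.cut 1 (.leaf 4) (.cut 0 (.cut 1 (.leaf 4) (.cut 0 (.leaf 2) (.leaf 0))) (.leaf 1))) (.cut 1 (.cut 0 (.cut 1 (.cut 0 (.leaf 2) (.leaf 0)) (.cut 0 (.leaf 2) (.leaf 0))) (.leaf 1)) (.leaf 3))))],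
  ![(.cut 0 (.cut 1 (.cut 0 (.cut 1 (.cut 0 (.leaf 2) (.cut 1 (.leaf 0) (.cut 0 (.cut 1 (.cut 0 (.cut 1 (.leaf 0) (.cut 0 (.leaf 2) (.cut 1 (.leaf 0) (.leaf 4)))) (.leaf 0)) (.leaf 4)) (.cut 1 (.leaf 0) (.leaf 4))))) (.leaf 4)) (.leaf 1)) (.leaf 4)) (.leaf 1)), (.leaf 4), (.leaf 4), (.cut 1 (.cut 0 (.cut 1 (.cut 0 (.cut 1 (.cut 0 (.leaf 2) (.leaf 0)) (.leaf 4)) (.leaf 1)) (.leaf 4)) (.leaf 1)) (.leaf 4)), (.cut 1 (.leaf 4) (.cut 0 (.cut 1 (.cut 0 (.cut 1 (.leaf 4) (.cut 0 (.leaf 2) (.leaf 0))) (.leaf 1)) (.cut 0 (.cut 1 (.cut 0 (.leaf 2) (.leaf 0)) (.leaf 3)) (.leaf 1))) (.leaf 1)))],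
  ![(.cut 0 (.leaf 1) (.cut 0 (.leaf 1) (.leaf 1))), (.leaf 4), (.leaf 4), (.cut 0 (.leaf 1) (.cut 1 (.cut 0 (.leaf 1) (.leaf 1)) (.leaf 4))), (.cut 0 (.leaf 1) (.cut 1 (.leaf 4) (.cut 0 (.leaf 1) (.leaf 1))))],
  ![(.leaf 1), (.leaf 1), (.leaf 1), (.leaf 1), (.leaf 1)]]

def xTree_5_11 : Fin 5 → Fin 5 → ACut := ![![(.cut 0 (.leaf 1) (.cut 1 (.cut 0 (.leaf 1) (.cut 1 (.leaf 3) (.cut 0 (.cut 1 (.cut 0 (.cut 1 (.leaf 3) (.leaf 0)) (.cut 1 (.leaf 3) (.cut 0 (.leaf 0) (.leaf 2)))) (.cut 0 (.cut 1 (.leaf 0) (.leaf 4)) (.cut 1 (.cut 0 (.leaf 0) (.leaf 2)) (.leaf 4)))) (.leaf 2)))) (.leaf 4))), (.leaf 4), (.cut 0 (.leaf 1) (.cut 1 (.leaf 4) (.cut 0 (.leaf 1) (.cut 1 (.leaf 4) (.cut 0 (.cut 1 (.leaf 4) (.cut 0 (.leaf 0) (.cut 1 (.leaf 4) (.leaf 0))))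 (.leaf 2)))))), (.cut 1 (.cut 0 (.leaf 1) (.cut 1 (.leaf 3) (.cut 0 (.leaf 1) (.cut 1 (.cut 0 (.cut 1 (.leaf 0) (.cut 0 (.leaf 0) (.cut 1 (.cut 0 (.leaf 0) (.leaf 2)) (.leaf 4)))) (.leaf 2)) (.leaf 4))))) (.cut 0 (.leaf 1) (.cut 1 (.leaf 4) (.cut 0 (.leaf 1) (.cut 1 (.leaf 4) (.cut 0 (.cut 1 (.leaf 4) (.cut 0 (.leaf 0) (.cut 1 (.leaf 4) (.leaf 0)))) (.leaf 2))))))), (.cut 1 (.cut 0 (.leaf 1) (.cut 1 (.cut 0 (.leaf 1) (.cut 1 (.cut 0 (.leaf 0) (.leaf 2)) (.cut 0 (.leaf 0) (.leaf 2)))) (.cut 0 (.leaf 1) (.cut 1 (.cut 0 (.leaf 0) (.leaf 2)) (.leaf 3))))) (.leaf 3))],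
  ![(.cut 1 (.cut 1 (.leaf 3) (.cut 0 (.leaf 2) (.cut 1 (.cut 0 (.leaf 0) (.leaf 1)) (.cut 0 (.cut 1 (.leaf 0) (.leaf 4)) (.leaf 1))))) (.leaf 4)), (.leaf 4), (.cut 1 (.leaf 4) (.cut 1 (.leaf 4) (.cut 0 (.leaf 2) (.cut 1 (.leaf 4) (.leaf 0))))), (.cut 1 (.cut 1 (.leaf 3) (.cut 1 (.cut 0 (.leaf 2) (.cut 1 (.cut 0 (.leaf 0) (.leaf 1)) (.cut 0 (.leaf 0) (.leaf 1)))) (.leaf 4))) (.cut 1 (.leaf 4) (.cut 1 (.leaf 4) (.cut 0 (.leaf 2) (.leaf 0))))), (.cut 1 (.cut 1 (.cut 1 (.cut 0 (.leaf 2) (.leaf 0)) (.cut 0 (.leaf 2) (.cut 1 (.cut 0 (.leaf 0) (.leaf 1)) (.cut 0 (.leaf 0) (.leaf 1))))) (.cut 1 (.cut 0 (.leaf 2) (.cut 1 (.cut 0 (.leaf 0) (.leaf 1)) (.cut 0 (.leaf 0) (.leaf 1)))) (.leaf 3))) (.leaf 3))],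
  ![(.cut 0 (.cut 1 (.cut 0 (.leaf 2) (.cut 1 (.leaf 3) (.cut 0 (.cut 1 (.leaf 0) (.cut 0 (.cut 1 (.cut 0 (.leaf 2) (.leaf 0)) (.leaf 4)) (.cut 1 (.leaf 0) (.leaf 4)))) (.cut 1 (.leaf 0) (.cut 0 (.cut 1 (.leaf 0) (.leaf 4)) (.leaf 1)))))) (.leaf 4)) (.leaf 1)), (.leaf 4), (.cut 0 (.cut 1 (.leaf 4) (.cut 0 (.leaf 2) (.cut 1 (.leaf 4) (.cut 0 (.cut 1 (.leaf 4) (.leaf 0)) (.leaf 0))))) (.leaf 1)), (.cut 1 (.cut 0 (.cut 1 (.leaf 3) (.cut 0 (.leaf 2) (.cut 1 (.leaf 0) (.leaf 4)))) (.leaf 1)) (.cut 0 (.cut 1 (.leaf 4) (.cut 0 (.leaf 2) (.cut 1 (.leaf 4) (.cut 0 (.cut 1 (.leaf 4) (.leaf 0)) (.leaf 0))))) (.leaf 1))), (.cut 1 (.cut 0 (.cut 1 (.cut 0 (.leaf 2) (.leaf 0)) (.cut 0 (.leaf 2) (.leaf 0))) (.leaf 1)) (.leaf 3))],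
  ![(.cut 0 (.leaf 1) (.cut 0 (.leaf 1) (.leaf 1))), (.leaf 4), (.cut 0 (.leaf 1) (.cut 0 (.leaf 1) (.leaf 1))), (.cut 0 (.leaf 1) (.cut 1 (.cut 0 (.leaf 1) (.leaf 1)) (.cut 0 (.leaf 1) (.leaf 1)))), (.cut 0 (.leaf 1) (.cut 1 (.cut 0 (.leaf 1) (.leaf 1)) (.leaf 3)))],
  ![(.leaf 1), (.leaf 1), (.leaf 1), (.leaf 1), (.leaf 1)]]

def xTree_7_18 : Fin 5 → Fin 5 → ACut := ![![(.cut 0 (.leaf 1) (.cut 1 (.cut 0 (.cut 1 (.cut 0 (.leaf 1) (.cut 1 (.cut 0 (.leaf 0) (.leaf 2)) (.leaf 4))) (.leaf 4)) (.leaf 2)) (.leaf 4))), (.leaf 4), (.leaf 4), (.cut 1 (.cut 0 (.leaf 1) (.cut 1 (.cut 0 (.cut 1 (.cut 0 (.leaf 1) (.cut 1 (.leaf 0) (.leaf 4))) (.leaf 4)) (.leaf 2)) (.leaf 4))) (.leaf 4)), (.cut 1 (.leaf 4) (.cut 0 (.leaf 1) (.cut 1 (.leaf 4) (.cut 0 (.cut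 1 (.leaf 4) (.leaf 0)) (.leaf 2)))))],
  ![(.cut 1 (.cut 1 (.cut 0 (.leaf 2) (.cut 1 (.cut 0 (.leaf 2) (.leaf 0)) (.leaf 4))) (.leaf 4)) (.leaf 4)), (.leaf 4), (.leaf 4), (.cut 1 (.cut 1 (.cut 1 (.cut 0 (.leaf 2) (.cut 1 (.cut 0 (.leaf 2) (.leaf 0)) (.leaf 4))) (.leaf 4)) (.leaf 4)) (.leaf 4)), (.cut 1 (.leaf 4) (.cut 1 (.leaf 4) (.cut 1 (.leaf 4) (.cut 0 (.leaf 2) (.cut 1 (.leaf 4) (.cut 0 (.leaf 2) (.leaf 0)))))))],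
  ![(.cut 0 (.leaf 2) (.cut 1 (.cut 0 (.cut 1 (.cut 0 (.cut 1 (.cut 0 (.cut 1 (.leaf 0) (.leaf 4)) (.cut 1 (.leaf 0) (.leaf 4))) (.leaf 4)) (.cut 1 (.leaf 0) (.leaf 4))) (.leaf 4)) (.leaf 1)) (.leaf 4))), (.leaf 4), (.leaf 4), (.cut 1 (.cut 0 (.leaf 2) (.cut 1 (.cut 0 (.cut 1 (.cut 0 (.cut 1 (.leaf 0) (.leaf 4)) (.cut 1 (.leaf 0) (.leaf 4))) (.leaf 4)) (.leaf 1)) (.leaf 4))) (.leaf 4)), (.cut 1 (.leaf 4) (.cut 0 (.leaf 2) (.cut 1 (.leaf 4) (.cut 0 (.cut 1 (.leaf 4) (.leaf 0)) (.leaf 1)))))],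
  ![(.cut 0 (.leaf 1) (.cut 0 (.cut 1 (.cut 0 (.cut 1 (.leaf 0) (.leaf 4)) (.cut 1 (.leaf 0) (.leaf 4))) (.leaf 4)) (.cut 1 (.cut 0 (.cut 1 (.leaf 0) (.leaf 4)) (.leaf 1)) (.leaf 4)))), (.leaf 4), (.leaf 4), (.cut 0 (.leaf 1) (.cut 1 (.cut 0 (.cut 1 (.cut 0 (.cut 1 (.leaf 0) (.leaf 4)) (.cut 1 (.leaf 0) (.leaf 4))) (.leaf 4)) (.cut 1 (.cut 0 (.cut 1 (.leaf 0) (.leaf 4)) (.leaf 1)) (.leaf 4))) (.leaf 4))), (.cut 0 (.leaf 1) (.cut 1 (.leaf 4) (.cut 0 (.cut 1 (.leaf 4) (.leaf 0)) (.cut 1 (.leaf 4) (.leaf 0)))))],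
  ![(.leaf 1), (.leaf 1), (.leaf 1), (.leaf 1), (.leaf 1)]]

def xTree_12_12 : Fin 5 → Fin 5 → ACut := ![![(.cut 0 (.cut 1 (.leaf 0) (.leaf 4)) (.leaf 2)), (.leaf 4), (.leaf 4), (.cut 1 (.cut 0 (.cut 1 (.leaf 0) (.cut 0 (.leaf 1) (.cut 1 (.leaf 0) (.leaf 4)))) (.leaf 2)) (.leaf 4)), (.cut 1 (.cut 0 (.cut 1 (.leaf 4) (.leaf 0)) (.leaf 2)) (.cut 0 (.leaf 0) (.leaf 2)))],
  ![(.leaf 2), (.leaf 2), (.leaf 2), (.leaf 2), (.leaf 2)],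
  ![(.leaf 2), (.leaf 2), (.leaf 2), (.leaf 2), (.leaf 2)],
  ![(.cut 0 (.cut 0 (.cut 1 (.leaf 0) (.leaf 4)) (.cut 1 (.cut 0 (.leaf 0) (.leaf 2)) (.leaf 4))) (.leaf 2)), (.leaf 4), (.leaf 4), (.cut 0 (.cut 1 (.leaf 0) (.leaf 4)) (.leaf 2)), (.cut 0 (.cut 1 (.leaf 0) (.leaf 0)) (.leaf 2))],
  ![(.cut 0 (.cut 0 (.leaf 2) (.cut 1 (.leaf 0) (.leaf 4))) (.cut 0 (.cut 1 (.leaf 0) (.leaf 4)) (.leaf 1))), (.leaf 4), (.leaf 4), (.cut 0 (.cut 1 (.leaf 0) (.leaf 4)) (.cut 1 (.leaf 0) (.leaf 4))), (.leaf 0)]]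

/-- The checks of this file, one after another. -/
theorem xChecks_1 :
    xCellOK 0 6 xTree_0_6 = true ∧
    xCellOK 1 7 xTree_1_7 = true ∧
    xCellOK 3 15 xTree_3_15 = true ∧
    xCellOK 5 11 xTree_5_11 = true ∧
    xCellOK 7 18 xTree_7_18 = true ∧
    xCellOK 12 12 xTree_12_12 = true :=
  ⟨by decide +kernel,
    by decide +kernel,
    by decide +kernel,
    by decide +kernel,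
    by decide +kernel,
    by decide +kernel⟩

theorem xCell_0_6 : xCellOK 0 6 xTree_0_6 = true :=
  xChecks_1.1

theorem xCell_1_7 : xCellOK 1 7 xTree_1_7 = true :=
  xChecks_1.2.1

theorem xCell_3_15 : xCellOK 3 15 xTree_3_15 = true :=
  xChecks_1.2.2.1

theorem xCell_5_11 : xCellOK 5 11 xTree_5_11 = true :=
  xChecks_1.2.2.2.1

theorem xCell_7_18 : xCellOK 7 18 xTree_7_18 = true :=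
  xChecks_1.2.2.2.2.1

theorem xCell_12_12 : xCellOK 12 12 xTree_12_12 = true :=
  xChecks_1.2.2.2.2.2

end Vale.Agent.P154.Ferro4
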