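import Vale.Agent.P154.Ferro4.XCell

/-! P154, four states: kernel checks of cells of the subadditivity certificate. -/

namespace Vale.Agent.P154.Ferro4

open PolyCheck XCheck

def xTree_0_14 : Fin 5 → Fin 5 → ACut := ![![(.cut 0 (.leaf 1) (.cut 1 (.cut 0 (.leaf 1) (.cut 1 (.cut 0 (.leaf 1) (.cut 1 (.leaf 3) (.cut 0 (.leaf 1) (.leaf 0)))) (.leaf 4))) (.leaf 4))), (.leaf 4), (.leaf 4), (.cut 1 (.cut 0 (.leaf 1) (.cut 1 (.cut 0 (.leaf 1) (.cut 1 (.cut 0 (.leaf 1) (.leaf 0)) (.cut 0 (.leaf 1) (.leaf 0)))) (.leaf 4))) (.leaf 4)), (.cut 1 (.leaf 4) (.cut 0 (.leaf 1) (.cut 1 (.cut 0 (.leaf 1) (.cut 1 (.leaf 4) (.cut 0 (.leaf 1) (.leaf 0)))) (.leaf 3))))],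
  ![(.cut 1 (.cut 1 (.cut 0 (.cut 1 (.leaf 3) (.cut 0 (.leaf 0) (.leaf 1))) (.leaf 1)) (.leaf 4)) (.leaf 4)), (.leaf 4), (.leaf 4), (.cut 1 (.cut 1 (.cut 1 (.leaf 0) (.cut 0 (.leaf 0) (.leaf 1))) (.leaf 4)) (.leaf 4)), (.cut 1 (.leaf 4) (.cut 1 (.cut 1 (.leaf 4) (.cut 0 (.leaf 0) (.leaf 1))) (.leaf 3)))],
  ![(.cut 0 (.cut 1 (.cut 0 (.cut 1 (.cut 0 (.leaf 0) (.leaf 1)) (.leaf 4)) (.leaf 1)) (.leaf 4)) (.leaf 1)), (.leaf 4), (.leaf 4), (.cut 1 (.cut 0 (.cut 1 (.cut 0 (.cut 1 (.leaf 0) (.leaf 0)) (.leaf 1)) (.leaf 4)) (.leaf 1)) (.leaf 4)), (.cut 1 (.leaf 4) (.cut 0 (.cut 1 (.cut 0 (.leaf 0) (.leaf 1)) (.leaf 3)) (.leaf 1)))],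
  ![(.cut 0 (.leaf 1) (.cut 0 (.leaf 1) (.leaf 1))), (.leaf 4), (.leaf 4), (.cut 0 (.leaf 1) (.cut 1 (.cut 0 (.leaf 1) (.leaf 1)) (.leaf 4))), (.cut 0 (.leaf 1) (.cut 1 (.leaf 4) (.cut 0 (.leaf 1) (.leaf 1))))],
  ![(.leaf 1), (.leaf 1), (.leaf 1), (.leaf 1), (.leaf 1)]]

def xTree_1_14 : Fin 5 → Fin 5 → ACut := ![![(.cut 0 (.leaf 1) (.cut 1 (.cut 0 (.leaf 1) (.cut 1 (.cut 0 (.leaf 1) (.cut 1 (.leaf 3) (.cut 0 (.leaf 1) (.cut 1 (.cut 0 (.leaf 0) (.cut 1 (.leaf 3) (.cut 0 (.leaf 0) (.leaf 2)))) (.cut 0 (.leaf 0) (.cut 1 (.cut 0 (.leaf 0) (.leaf 2)) (.cut 0 (.leaf 0) (.leaf 2)))))))) (.leaf 4))) (.leaf 4))), (.leaf 4), (.leaf 4), (.cut 1 (.cut 0 (.leaf 1) (.cut 1 (.cut 0 (.leaf 1) (.cut 1 (.cut 0 (.leaf 1) (.cut 1 (.leaf 3) (.cut 0 (.leaf 1) (.cut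 1 (.leaf 3) (.cut 0 (.leaf 0) (.cut 1 (.leaf 3) (.cut 0 (.leaf 0) (.leaf 2)))))))) (.cut 0 (.leaf 1) (.cut 1 (.cut 0 (.leaf 1) (.cut 1 (.cut 0 (.leaf 0) (.cut 1 (.cut 0 (.leaf 0) (.leaf 2)) (.cut 0 (.leaf 0) (.leaf 2)))) (.cut 0 (.leaf 0) (.cut 1 (.cut 0 (.leaf 0) (.leaf 2)) (.cut 0 (.leaf 0) (.leaf 2)))))) (.leaf 4))))) (.leaf 4))) (.leaf 4)), (.cut 1 (.leaf 4) (.cut 0 (.leaf 1) (.cut 1 (.cut 0 (.leaf 1) (.cut 1 (.leaf 4) (.cut 0 (.leaf 1) (.cut 1 (.cut 0 (.leaf 1) (.cut 1 (.cut 0 (.leaf 0) (.cut 1 (.cut 0 (.leaf 0) (.leaf 2)) (.cut 0 (.leaf 0) (.leaf 2)))) (.cut 0 (.leaf 0) (.cut 1 (.cut 0 (.leaf 0) (.leaf 2)) (.cut 0 (.leaf 0) (.leaf 2)))))) (.cut 0 (.leaf 1) (.cut 1 (.cut 0 (.leaf 0) (.cut 1 (.cut 0 (.leaf 0) (.leaf 2)) (.cut 0 (.leaf 0) (.leaf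 2)))) (.cut 0 (.leaf 0) (.cut 1 (.cut 0 (.leaf 0) (.leaf 2)) (.cut 0 (.leaf 0) (.leaf 2)))))))))) (.leaf 3))))],
  ![(.cut 1 (.cut 1 (.cut 0 (.cut 1 (.leaf 3) (.cut 0 (.cut 1 (.cut 0 (.cut 1 (.leaf 3) (.cut 0 (.leaf 2) (.leaf 0))) (.leaf 0)) (.cut 0 (.cut 1 (.cut 0 (.leaf 2) (.leaf 0)) (.cut 0 (.leaf 2) (.leaf 0))) (.leaf 0))) (.leaf 1))) (.leaf 1)) (.leaf 4)) (.leaf 4)), (.leaf 4), (.leaf 4), (.cut 1 (.cut 1 (.cut 1 (.cut 0 (.cut 1 (.leaf 3) (.cut 0 (.cut 1 (.leaf 3) (.cut 0 (.cut 1 (.leaf 3) (.cut 0 (.leaf 2) (.leaf 0))) (.leaf 0))) (.leaf 1))) (.leaf 1)) (.cut 0 (.cut 1 (.cut 0 (.cut 1 (.cut 0 (.cut 1 (.cut 0 (.leaf 2) (.leaf 0)) (.cut 0 (.leaf 2) (.leaf 0))) (.leaf 0)) (.cut 0 (.cut 1 (.cut 0 (.leaf 2) (.leaf 0)) (.cut 0 (.leaf 2) (.leaf 0)))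 (.leaf 0))) (.leaf 1)) (.leaf 4)) (.leaf 1))) (.leaf 4)) (.leaf 4)), (.cut 1 (.leaf 4) (.cut 1 (.cut 1 (.leaf 4) (.cut 0 (.cut 1 (.cut 0 (.cut 1 (.cut 0 (.cut 1 (.cut 0 (.leaf 2) (.leaf 0)) (.cut 0 (.leaf 2) (.leaf 0))) (.leaf 0)) (.cut 0 (.cut 1 (.cut 0 (.leaf 2) (.leaf 0)) (.cut 0 (.leaf 2) (.leaf 0))) (.leaf 0))) (.leaf 1)) (.cut 0 (.cut 1 (.cut 0 (.cut 1 (.cut 0 (.leaf 2) (.leaf 0)) (.cut 0 (.leaf 2) (.leaf 0))) (.leaf 0)) (.cut 0 (.cut 1 (.cut 0 (.leaf 2) (.leaf 0)) (.cut 0 (.leaf 2) (.leaf 0))) (.leaf 0))) (.leaf 1))) (.leaf 1))) (.leaf 3)))],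
  ![(.cut 0 (.cut 1 (.cut 0 (.cut 1 (.cut 0 (.cut 1 (.leaf 3) (.cut 0 (.cut 1 (.cut 0 (.leaf 2) (.leaf 0)) (.cut 0 (.leaf 2) (.leaf 0))) (.leaf 0))) (.leaf 1)) (.leaf 4)) (.leaf 1)) (.leaf 4)) (.leaf 1)), (.leaf 4), (.leaf 4), (.cut 1 (.cut 0 (.cut 1 (.cut 0 (.cut 1 (.cut 0 (.cut 1 (.leaf 3) (.cut 0 (.cut 1 (.leaf 3) (.cut 0 (.leaf 2) (.leaf 0))) (.leaf 0))) (.leaf 1)) (.cut 0 (.cut 1 (.cut 0 (.cut 1 (.cut 0 (.leaf 2) (.leaf 0)) (.cut 0 (.leaf 2) (.leaf 0))) (.leaf 0)) (.leaf 4)) (.leaf 1))) (.leaf 1)) (.leaf 4)) (.leaf 1)) (.leaf 4)), (.cut 1 (.leaf 4) (.cut 0 (.cut 1 (.cut 0 (.cut 1 (.leaf 4) (.cut 0 (.cut 1 (.cut 0 (.cut 1 (.cut 0 (.leaf 2) (.leaf 0)) (.cut 0 (.leaf 2) (.leaf 0))) (.leaf 0)) (.cut 0 (.cut 1 (.cut 0 (.leaf 2) (.leaf 0)) (.cut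 0 (.leaf 2) (.leaf 0))) (.leaf 0))) (.leaf 1))) (.leaf 1)) (.leaf 3)) (.leaf 1)))],
  ![(.cut 0 (.leaf 1) (.cut 0 (.leaf 1) (.leaf 1))), (.leaf 4), (.leaf 4), (.cut 0 (.leaf 1) (.cut 1 (.cut 0 (.leaf 1) (.leaf 1)) (.leaf 4))), (.cut 0 (.leaf 1) (.cut 1 (.leaf 4) (.cut 0 (.leaf 1) (.leaf 1))))],
  ![(.leaf 1), (.leaf 1), (.leaf 1), (.leaf 1), (.leaf 1)]]

def xTree_2_5 : Fin 5 → Fin 5 → ACut := ![![(.cut 0 (.leaf 1) (.cut 1 (.leaf 3) (.cut 0 (.leaf 1) (.cut 1 (.leaf 3) (.cut 0 (.leaf 1) (.cut 1 (.cut 0 (.leaf 0) (.cut 1 (.cut 0 (.leaf 0) (.leaf 2)) (.cut 0 (.leaf 0) (.leaf 2)))) (.leaf 4))))))), (.cut 0 (.leaf 1) (.cut 0 (.leaf 1) (.cut 1 (.leaf 4) (.cut 0 (.leaf 1) (.cut 1 (.cut 0 (.leaf 0) (.cut 1 (.cut 0 (.leaf 0) (.leaf 2)) (.cut 0 (.leaf 0)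 (.leaf 2)))) (.leaf 3)))))), (.cut 0 (.leaf 1) (.cut 1 (.cut 0 (.leaf 1) (.cut 1 (.leaf 4) (.cut 0 (.leaf 1) (.cut 1 (.cut 0 (.leaf 0) (.cut 1 (.cut 0 (.cut 1 (.leaf 4) (.leaf 0)) (.leaf 2)) (.cut 0 (.leaf 0) (.leaf 2)))) (.cut 0 (.leaf 0) (.cut 1 (.cut 0 (.leaf 0) (.leaf 2)) (.leaf 3))))))) (.leaf 3))), (.cut 1 (.leaf 3) (.cut 0 (.leaf 1) (.cut 1 (.leaf 3) (.leaf 3)))), (.leaf 3)],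
  ![(.cut 1 (.leaf 3) (.cut 1 (.leaf 3) (.cut 0 (.cut 1 (.cut 0 (.cut 1 (.cut 0 (.leaf 2) (.leaf 0)) (.cut 0 (.leaf 2) (.cut 1 (.leaf 0) (.leaf 4)))) (.cut 1 (.leaf 0) (.cut 0 (.cut 1 (.leaf 0) (.leaf 4)) (.leaf 1)))) (.leaf 4)) (.leaf 1)))), (.cut 0 (.cut 1 (.leaf 4) (.cut 0 (.cut 1 (.cut 0 (.leaf 2) (.leaf 0)) (.leaf 3)) (.leaf 0))) (.leaf 1)), (.cut 1 (.cut 1 (.leaf 4) (.cut 0 (.cut 1 (.cut 0 (.cut 1 (.cut 0 (.leaf 2) (.leaf 0)) (.cut 0 (.leaf 2) (.leaf 0))) (.leaf 0)) (.cut 0 (.cut 1 (.cut 0 (.leaf 2) (.leaf 0)) (.leaf 3)) (.leaf 0))) (.leaf 1))) (.leaf 3)), (.cut 1 (.leaf 3) (.cut 1 (.leaf 3) (.leaf 3))), (.leaf 3)],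
  ![(.cut 0 (.cut 1 (.leaf 3) (.cut 0 (.cut 1 (.leaf 3) (.cut 0 (.cut 1 (.cut 0 (.leaf 2) (.leaf 0)) (.leaf 4)) (.cut 1 (.leaf 0) (.leaf 4)))) (.leaf 1))) (.leaf 1)), (.cut 0 (.cut 0 (.cut 1 (.leaf 4) (.cut 0 (.cut 1 (.cut 0 (.leaf 2) (.leaf 0)) (.leaf 3)) (.leaf 0))) (.leaf 1)) (.leaf 1)), (.cut 0 (.cut 1 (.cut 0 (.cut 1 (.leaf 4) (.cut 0 (.cut 1 (.cut 0 (.leaf 2) (.cut 1 (.cut 0 (.cut 1 (.leaf 4) (.leaf 0)) (.cut 1 (.leaf 4) (.leaf 0))) (.leaf 0))) (.cut 0 (.leaf 2) (.leaf 0))) (.cut 1 (.cut 0 (.cut 1 (.cut 0 (.cut 1 (.leaf 4) (.leaf 0)) (.leaf 1)) (.leaf 0)) (.leaf 1)) (.leaf 0)))) (.leaf 1)) (.leaf 3)) (.leaf 1)), (.cut 1 (.leaf 3) (.cut 0 (.cut 1 (.leaf 3) (.leaf 3)) (.leaf 1))), (.leaf 3)],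
  ![(.cut 0 (.leaf 1) (.cut 0 (.leaf 1) (.leaf 1))), (.cut 0 (.leaf 1) (.cut 0 (.leaf 1) (.leaf 1))), (.cut 0 (.leaf 1) (.cut 0 (.leaf 1) (.leaf 1))), (.cut 0 (.leaf 1) (.cut 1 (.leaf 3) (.cut 0 (.leaf 1) (.leaf 1)))), (.leaf 3)],
  ![(.leaf 1), (.leaf 1), (.leaf 1), (.leaf 1), (.leaf 1)]]

def xTree_5_5 : Fin 5 → Fin 5 → ACut := ![![(.cut 0 (.leaf 1) (.cut 1 (.leaf 3) (.cut 0 (.leaf 1) (.cut 1 (.leaf 3) (.cut 0 (.cut 1 (.leaf 0) (.leaf 4)) (.leaf 2)))))), (.cut 0 (.leaf 1) (.cut 0 (.leaf 1) (.cut 1 (.leaf 4) (.cut 0 (.leaf 0) (.leaf 2))))), (.cut 0 (.leaf 1) (.cut 1 (.cut 0 (.leaf 1) (.cut 1 (.leaf 4) (.cut 0 (.cut 1 (.cut 0 (.leaf 0) (.cut 1 (.cut 0 (.leaf 0) (.leaf 2)) (.leaf 0))) (.leaf 0)) (.leaf 2)))) (.leaf 3))), (.cut 1 (.leaf 3) (.cut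 0 (.leaf 1) (.cut 1 (.leaf 3) (.leaf 3)))), (.leaf 3)],
  ![(.cut 1 (.leaf 3) (.cut 1 (.leaf 3) (.cut 0 (.leaf 2) (.cut 1 (.leaf 0) (.leaf 4))))), (.cut 0 (.leaf 2) (.cut 1 (.leaf 4) (.leaf 0))), (.cut 1 (.cut 1 (.leaf 4) (.cut 0 (.leaf 2) (.leaf 0))) (.leaf 3)), (.cut 1 (.leaf 3) (.cut 1 (.leaf 3) (.leaf 3))), (.leaf 3)],
  ![(.cut 0 (.cut 1 (.leaf 3) (.cut 0 (.leaf 2) (.cut 1 (.leaf 3) (.cut 0 (.cut 1 (.cut 0 (.cut 1 (.leaf 0) (.cut 0 (.leaf 2) (.leaf 0))) (.leaf 0)) (.leaf 4)) (.cut 1 (.leaf 0) (.leaf 4)))))) (.leaf 1)), (.cut 0 (.cut 0 (.leaf 2) (.cut 1 (.leaf 4) (.leaf 0))) (.leaf 1)), (.cut 0 (.cut 1 (.cut 0 (.leaf 2) (.cut 1 (.leaf 4) (.cut 0 (.cut 1 (.cut 0 (.cut 1 (.cut 0 (.leaf 2) (.cut 1 (.leaf 4) (.cut 0 (.leaf 2) (.leaf 0)))) (.cut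 0 (.leaf 2) (.leaf 0))) (.cut 1 (.cut 0 (.cut 1 (.leaf 4) (.leaf 0)) (.leaf 0)) (.leaf 0))) (.leaf 0)) (.cut 1 (.leaf 0) (.cut 0 (.cut 1 (.leaf 0) (.leaf 3)) (.leaf 1)))))) (.leaf 3)) (.leaf 1)), (.cut 1 (.leaf 3) (.cut 0 (.cut 1 (.leaf 3) (.leaf 3)) (.leaf 1))), (.leaf 3)],
  ![(.cut 0 (.leaf 1) (.cut 0 (.leaf 1) (.leaf 1))), (.cut 0 (.leaf 1) (.cut 0 (.leaf 1) (.leaf 1))), (.cut 0 (.leaf 1) (.cut 0 (.leaf 1) (.leaf 1))), (.cut 0 (.leaf 1) (.cut 1 (.leaf 3) (.cut 0 (.leaf 1) (.leaf 1)))), (.leaf 3)],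
  ![(.leaf 1), (.leaf 1), (.leaf 1), (.leaf 1), (.leaf 1)]]

def xTree_8_8 : Fin 5 → Fin 5 → ACut := ![![(.cut 0 (.leaf 1) (.cut 1 (.leaf 3) (.cut 0 (.cut 1 (.cut 0 (.cut 1 (.cut 0 (.leaf 1) (.leaf 0)) (.cut 0 (.leaf 1) (.cut 1 (.leaf 0) (.leaf 4)))) (.cut 1 (.cut 0 (.leaf 0) (.leaf 2)) (.cut 0 (.cut 1 (.leaf 0) (.leaf 4)) (.leaf 2)))) (.leaf 4)) (.leaf 2)))), (.leaf 4), (.cut 0 (.leaf 1) (.cut 1 (.leaf 4) (.cut 0 (.cut 1 (.cut 0 (.leaf 0) (.cut 1 (.leaf 4) (.cut 0 (.cut 1 (.cut 0 (.leaf 0) (.leaf 2)) (.leaf 0)) (.leaf 2)))) (.cut 0 (.leaf 0) (.cut 1 (.cut 0 (.leaf 0) (.leaf 2)) (.leaf 3)))) (.leaf 2)))), (.cut 1 (.cut 0 (.leaf 1) (.cut 1 (.leaf 3) (.cut 0 (.cut 1 (.leaf 3) (.leaf 0)) (.leaf 2)))) (.cut 0 (.leaf 1) (.cut 1 (.cut 0 (.leaf 0) (.leaf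 2)) (.cut 0 (.leaf 0) (.leaf 2))))), (.leaf 3)],
  ![(.leaf 2), (.leaf 2), (.leaf 2), (.leaf 2), (.leaf 2)],
  ![(.cut 0 (.leaf 2) (.cut 1 (.leaf 3) (.cut 0 (.cut 1 (.cut 0 (.leaf 2) (.cut 1 (.leaf 0) (.cut 0 (.cut 1 (.cut 0 (.cut 1 (.leaf 0) (.leaf 4)) (.leaf 0)) (.leaf 4)) (.cut 1 (.leaf 0) (.leaf 4))))) (.leaf 4)) (.cut 1 (.cut 0 (.cut 1 (.leaf 0) (.cut 0 (.cut 1 (.leaf 0) (.leaf 4)) (.leaf 1))) (.leaf 1)) (.leaf 4))))), (.leaf 4), (.cut 0 (.leaf 2) (.cut 1 (.leaf 4) (.cut 0 (.cut 1 (.cut 0 (.leaf 2) (.leaf 0)) (.leaf 0)) (.cut 1 (.leaf 0) (.cut 0 (.leaf 0) (.leaf 1)))))), (.cut 1 (.cut 0 (.leaf 2) (.cut 1 (.leaf 3) (.cut 0 (.leaf 0) (.cut 1 (.leaf 3) (.leaf 0))))) (.cut 0 (.leaf 2) (.cut 1 (.leaf 0) (.cut 0 (.leaf 0) (.cut 1 (.leaf 0) (.leaf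 3)))))), (.leaf 3)],
  ![(.cut 0 (.cut 0 (.leaf 1) (.cut 1 (.leaf 3) (.cut 0 (.leaf 1) (.cut 1 (.leaf 0) (.leaf 4))))) (.cut 0 (.cut 1 (.leaf 3) (.cut 0 (.cut 1 (.leaf 0) (.leaf 4)) (.leaf 2))) (.cut 1 (.leaf 3) (.cut 0 (.cut 1 (.leaf 0) (.leaf 4)) (.leaf 1))))), (.leaf 4), (.cut 0 (.cut 0 (.leaf 1) (.cut 1 (.leaf 4) (.cut 0 (.leaf 1) (.leaf 0)))) (.cut 0 (.cut 1 (.leaf 4) (.leaf 0)) (.cut 1 (.leaf 4) (.cut 0 (.leaf 0) (.leaf 1))))), (.cut 0 (.cut 1 (.cut 0 (.leaf 1) (.cut 1 (.leaf 3) (.cut 0 (.leaf 1) (.cut 1 (.leaf 3) (.leaf 0))))) (.cut 0 (.leaf 1) (.cut 1 (.leaf 0) (.cut 0 (.leaf 1) (.leaf 0))))) (.cut 1 (.cut 0 (.cut 1 (.leaf 3) (.leaf 0)) (.cut 1 (.leaf 3) (.cut 0 (.leaf 0) (.leaf 1)))) (.cut 0 (.leaf 0) (.cut 1 (.leaf 0) (.cut 0 (.leaf 0)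 (.leaf 1)))))), (.leaf 3)],
  ![(.leaf 1), (.leaf 1), (.leaf 1), (.leaf 1), (.leaf 1)]]

def xTree_9_18 : Fin 5 → Fin 5 → ACut := ![![(.cut 0 (.cut 1 (.cut 0 (.leaf 1) (.cut 1 (.cut 0 (.leaf 1) (.cut 1 (.leaf 0) (.leaf 4))) (.leaf 4))) (.leaf 4)) (.cut 1 (.cut 0 (.cut 1 (.cut 0 (.cut 1 (.leaf 0) (.leaf 4)) (.leaf 2)) (.leaf 4)) (.leaf 2)) (.leaf 4))), (.leaf 4), (.leaf 4), (.cut 1 (.cut 0 (.cut 1 (.cut 0 (.leaf 1) (.cut 1 (.leaf 0) (.leaf 4))) (.leaf 4)) (.cut 1 (.cut 0 (.cut 1 (.cut 0 (.leaf 0) (.leaf 2)) (.leaf 4)) (.leaf 2)) (.leaf 4))) (.leaf 4)), (.cut 1 (.leaf 4) (.cut 0 (.cut 1 (.leaf 4) (.leaf 0)) (.cut 1 (.leaf 4) (.cut 0 (.cut 1 (.leaf 4) (.cut 0 (.leaf 0) (.leaf 2))) (.leaf 2)))))],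
  ![(.leaf 2), (.leaf 2), (.leaf 2), (.leaf 2), (.leaf 2)],
  ![(.cut 0 (.leaf 2) (.cut 1 (.cut 0 (.leaf 2) (.cut 1 (.cut 0 (.cut 1 (.leaf 0) (.leaf 4)) (.leaf 1)) (.leaf 4))) (.leaf 4))), (.leaf 4), (.leaf 4), (.cut 1 (.cut 0 (.leaf 2) (.cut 1 (.cut 0 (.leaf 2) (.cut 1 (.leaf 0) (.leaf 4))) (.leaf 4))) (.leaf 4)), (.cut 1 (.leaf 4) (.cut 0 (.leaf 2) (.cut 1 (.leaf 4) (.cut 0 (.leaf 2) (.leaf 0)))))],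
  ![(.cut 0 (.cut 0 (.leaf 1) (.cut 1 (.cut 0 (.leaf 1) (.cut 1 (.leaf 0) (.leaf 4))) (.leaf 4))) (.cut 0 (.leaf 2) (.cut 1 (.cut 0 (.cut 1 (.leaf 0) (.leaf 4)) (.cut 1 (.leaf 0) (.leaf 4))) (.leaf 4)))), (.leaf 4), (.leaf 4), (.cut 0 (.cut 1 (.cut 0 (.leaf 1) (.cut 1 (.cut 0 (.leaf 1) (.cut 1 (.leaf 0) (.leaf 4))) (.leaf 4))) (.leaf 4)) (.cut 1 (.cut 0 (.leaf 2) (.cut 1 (.cut 0 (.cut 1 (.leaf 0) (.leaf 4)) (.cut 1 (.leaf 0) (.leaf 4))) (.leaf 4))) (.leaf 4))), (.cut 0 (.cut 1 (.leaf 4) (.cut 0 (.leaf 1) (.cut 1 (.leaf 4) (.leaf 0)))) (.cut 1 (.leaf 4) (.cut 0 (.leaf 2) (.cut 1 (.leaf 4) (.leaf 0)))))],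
  ![(.leaf 1), (.leaf 1), (.leaf 1), (.leaf 1), (.leaf 1)]]

def xTree_11_16 : Fin 5 → Fin 5 → ACut := ![![(.cut 0 (.cut 1 (.cut 0 (.leaf 1) (.cut 1 (.leaf 0) (.leaf 4))) (.leaf 4)) (.leaf 2)), (.leaf 4), (.leaf 4), (.cut 1 (.cut 0 (.cut 1 (.cut 0 (.leaf 1) (.cut 1 (.leaf 0) (.leaf 4))) (.leaf 4)) (.leaf 2)) (.leaf 4)), (.cut 1 (.leaf 4) (.cut 0 (.cut 1 (.leaf 4) (.leaf 0)) (.leaf 2)))],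
  ![(.leaf 2), (.leaf 2), (.leaf 2), (.leaf 2), (.leaf 2)],
  ![(.cut 0 (.leaf 2) (.cut 1 (.cut 0 (.leaf 2) (.cut 1 (.cut 0 (.leaf 2) (.cut 1 (.leaf 0) (.leaf 4))) (.leaf 4))) (.leaf 4))), (.leaf 4), (.leaf 4), (.cut 1 (.cut 0 (.leaf 2) (.cut 1 (.cut 0 (.leaf 2) (.cut 1 (.cut 0 (.leaf 2) (.cut 1 (.leaf 0) (.cut 0 (.leaf 2) (.leaf 0)))) (.leaf 4))) (.leaf 4))) (.leaf 4)), (.cut 1 (.leaf 4) (.cut 0 (.leaf 2) (.cut 1 (.leaf 4) (.cut 0 (.leaf 2) (.cut 1 (.cut 0 (.leaf 2) (.leaf 0)) (.leaf 0))))))],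
  ![(.cut 0 (.cut 0 (.leaf 1) (.cut 1 (.cut 0 (.cut 1 (.cut 0 (.leaf 0) (.cut 1 (.leaf 0) (.leaf 4))) (.leaf 4)) (.leaf 2)) (.leaf 4))) (.cut 0 (.leaf 2) (.cut 1 (.cut 0 (.leaf 2) (.cut 1 (.cut 0 (.leaf 2) (.cut 1 (.leaf 0) (.leaf 4))) (.leaf 4))) (.leaf 4)))), (.leaf 4), (.leaf 4), (.cut 0 (.cut 1 (.cut 0 (.leaf 1) (.cut 1 (.cut 0 (.cut 1 (.leaf 0) (.leaf 4)) (.leaf 2)) (.leaf 4))) (.leaf 4)) (.cut 1 (.cut 0 (.leaf 2) (.cut 1 (.cut 0 (.leaf 2) (.cut 1 (.cut 0 (.leaf 2) (.cut 1 (.leaf 0) (.cut 0 (.leaf 2) (.leaf 0)))) (.leaf 4))) (.leaf 4))) (.leaf 4))), (.cut 0 (.cut 1 (.leaf 4) (.cut 0 (.leaf 1) (.cut 1 (.leaf 4) (.cut 0 (.leaf 0) (.leaf 2))))) (.cut 1 (.leaf 4) (.cut 0 (.leaf 2) (.cut 1 (.leaf 4) (.cut 0 (.leaf 2) (.cut 1 (.cut 0 (.leaf 2) (.leaf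 0)) (.leaf 0)))))))],
  ![(.cut 0 (.cut 0 (.cut 1 (.cut 0 (.cut 1 (.cut 0 (.cut 1 (.leaf 0) (.leaf 4)) (.cut 1 (.leaf 0) (.leaf 4))) (.leaf 4)) (.cut 1 (.cut 0 (.cut 1 (.leaf 0) (.leaf 4)) (.cut 1 (.leaf 0) (.leaf 4))) (.leaf 4))) (.leaf 4)) (.cut 1 (.cut 0 (.cut 1 (.cut 0 (.cut 1 (.leaf 0) (.leaf 4)) (.leaf 0)) (.leaf 4)) (.leaf 1)) (.leaf 4))) (.leaf 1)), (.leaf 4), (.leaf 4), (.cut 0 (.cut 1 (.cut 0 (.cut 1 (.cut 0 (.cut 1 (.leaf 0) (.leaf 4)) (.cut 1 (.leaf 0) (.leaf 4))) (.leaf 4)) (.cut 1 (.cut 0 (.cut 1 (.leaf 0) (.leaf 4)) (.leaf 1)) (.leaf 4))) (.leaf 4)) (.leaf 1)), (.cut 0 (.cut 1 (.leaf 4) (.leaf 0)) (.leaf 1))]]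

/-- The checks of this file, one after another. -/
theorem xChecks_10 :
    xCellOK 0 14 xTree_0_14 = true ∧
    xCellOK 1 14 xTree_1_14 = true ∧
    xCellOK 2 5 xTree_2_5 = true ∧
    xCellOK 5 5 xTree_5_5 = true ∧
    xCellOK 8 8 xTree_8_8 = true ∧
    xCellOK 9 18 xTree_9_18 = true ∧
    xCellOK 11 16 xTree_11_16 = true :=
  ⟨by decide +kernel,
    by decide +kernel,
    by decide +kernel,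
    by decide +kernel,
    by decide +kernel,
    by decide +kernel,
    by decide +kernel⟩

theorem xCell_0_14 : xCellOK 0 14 xTree_0_14 = true :=
  xChecks_10.1

theorem xCell_1_14 : xCellOK 1 14 xTree_1_14 = true :=
  xChecks_10.2.1

theorem xCell_2_5 : xCellOK 2 5 xTree_2_5 = true :=
  xChecks_10.2.2.1

theorem xCell_5_5 : xCellOK 5 5 xTree_5_5 = true :=
  xChecks_10.2.2.2.1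

theorem xCell_8_8 : xCellOK 8 8 xTree_8_8 = true :=
  xChecks_10.2.2.2.2.1

theorem xCell_9_18 : xCellOK 9 18 xTree_9_18 = true :=
  xChecks_10.2.2.2.2.2.1

theorem xCell_11_16 : xCellOK 11 16 xTree_11_16 = true :=
  xChecks_10.2.2.2.2.2.2

end Vale.Agent.P154.Ferro4
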