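import Vale.Agent.P154.Ferro4.XCell

/-! P154, four states: kernel checks of cells of the subadditivity certificate. -/

namespace Vale.Agent.P154.Ferro4

open PolyCheck XCheck

def xTree_0_1 : Fin 5 → Fin 5 → ACut := ![![(.cut 0 (.leaf 1) (.cut 1 (.leaf 3) (.cut 0 (.leaf 1) (.cut 1 (.leaf 3) (.leaf 0))))), (.cut 0 (.leaf 1) (.cut 0 (.leaf 1) (.cut 1 (.cut 0 (.leaf 1) (.cut 1 (.cut 0 (.leaf 1) (.cut 1 (.cut 0 (.leaf 1) (.cut 1 (.leaf 4) (.leaf 0))) (.leaf 0))) (.leaf 3))) (.leaf 3)))), (.cut 0 (.leaf 1) (.cut 1 (.cut 0 (.leaf 1) (.cut 1 (.leaf 0) (.leaf 3))) (.leaf 3))), (.cut 1 (.leaf 3) (.cut 0 (.leaf 1) (.cut 1 (.leaf 3) (.leaf 3)))), (.leaf 3)],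
  ![(.cut 1 (.leaf 3) (.cut 1 (.leaf 3) (.cut 0 (.cut 1 (.leaf 3) (.cut 0 (.cut 1 (.leaf 3) (.cut 0 (.cut 1 (.leaf 0) (.cut 0 (.cut 1 (.leaf 0) (.leaf 4)) (.leaf 0))) (.leaf 1))) (.leaf 1))) (.leaf 1)))), (.leaf 0), (.cut 1 (.leaf 0) (.leaf 3)), (.cut 1 (.leaf 3) (.cut 1 (.leaf 3) (.leaf 3))), (.leaf 3)],
  ![(.cut 0 (.cut 1 (.leaf 3) (.cut 0 (.cut 1 (.leaf 3) (.leaf 0)) (.leaf 1))) (.leaf 1)), (.leaf 0), (.cut 0 (.cut 1 (.cut 0 (.leaf 0) (.leaf 1)) (.leaf 3)) (.leaf 1)), (.cut 1 (.leaf 3) (.cut 0 (.cut 1 (.leaf 3) (.leaf 3)) (.leaf 1))), (.leaf 3)],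
  ![(.cut 0 (.leaf 1) (.cut 0 (.leaf 1) (.leaf 1))), (.cut 0 (.leaf 1) (.leaf 0)), (.cut 0 (.leaf 1) (.cut 0 (.leaf 1) (.leaf 1))), (.cut 0 (.leaf 1) (.cut 1 (.leaf 3) (.cut 0 (.leaf 1) (.leaf 1)))), (.leaf 3)],
  ![(.leaf 1), (.leaf 1), (.leaf 1), (.leaf 1), (.leaf 1)]]

def xTree_1_15 : Fin 5 → Fin 5 → ACut := ![![(.cut 0 (.leaf 1) (.cut 1 (.cut 0 (.leaf 1) (.cut 1 (.cut 0 (.leaf 1) (.cut 1 (.cut 0 (.leaf 1) (.cut 1 (.leaf 3) (.cut 0 (.leaf 0) (.cut 1 (.leaf 3) (.cut 0 (.leaf 0) (.leaf 2)))))) (.cut 0 (.leaf 1) (.cut 1 (.cut 0 (.cut 1 (.leaf 0) (.cut 0 (.cut 1 (.leaf 0) (.leaf 4)) (.cut 1 (.leaf 0) (.leaf 4)))) (.cut 1 (.cut 0 (.leaf 0) (.leaf 2)) (.cut 0 (.cut 1 (.leaf 0) (.leaf 4)) (.leaf 2)))) (.leaf 4))))) (.leaf 4))) (.leaf 4))), (.leaf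 4), (.leaf 4), (.cut 1 (.cut 0 (.leaf 1) (.cut 1 (.cut 0 (.leaf 1) (.cut 1 (.cut 0 (.leaf 1) (.cut 1 (.leaf 3) (.cut 0 (.leaf 1) (.cut 1 (.cut 0 (.leaf 0) (.cut 1 (.leaf 3) (.cut 0 (.leaf 0) (.leaf 2)))) (.cut 0 (.leaf 0) (.cut 1 (.cut 0 (.leaf 0) (.leaf 2)) (.cut 0 (.leaf 0) (.leaf 2)))))))) (.leaf 4))) (.leaf 4))) (.leaf 4)), (.cut 1 (.leaf 4) (.cut 0 (.leaf 1) (.cut 1 (.cut 0 (.leaf 1) (.cut 1 (.leaf 4) (.cut 0 (.leaf 1) (.cut 1 (.leaf 4) (.cut 0 (.leaf 1) (.cut 1 (.leaf 4) (.cut 0 (.leaf 0) (.cut 1 (.leaf 4) (.cut 0 (.leaf 0) (.leaf 2)))))))))) (.cut 0 (.leaf 1) (.cut 1 (.cut 0 (.leaf 1) (.cut 1 (.cut 0 (.leaf 1) (.cut 1 (.cut 0 (.leaf 0) (.cut 1 (.cut 0 (.leaf 0) (.leaf 2)) (.cut 0 (.leaf 0) (.leaf 2)))) (.cut 0 (.leaf 0) (.cut 1 (.cut 0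 (.leaf 0) (.leaf 2)) (.cut 0 (.leaf 0) (.leaf 2)))))) (.cut 0 (.leaf 1) (.cut 1 (.cut 0 (.leaf 0) (.cut 1 (.cut 0 (.leaf 0) (.leaf 2)) (.cut 0 (.leaf 0) (.leaf 2)))) (.leaf 3))))) (.leaf 3))))))],
  ![(.cut 1 (.cut 1 (.cut 0 (.cut 1 (.cut 0 (.cut 1 (.leaf 3) (.cut 0 (.cut 1 (.leaf 3) (.cut 0 (.leaf 2) (.leaf 0))) (.leaf 0))) (.leaf 1)) (.cut 0 (.cut 1 (.cut 0 (.cut 1 (.cut 0 (.leaf 2) (.leaf 0)) (.cut 0 (.leaf 2) (.cut 1 (.leaf 0) (.leaf 4)))) (.leaf 0)) (.leaf 4)) (.leaf 1))) (.leaf 1)) (.leaf 4)) (.leaf 4)), (.leaf 4), (.leaf 4), (.cut 1 (.cut 1 (.cut 1 (.cut 0 (.cut 1 (.leaf 3) (.cut 0 (.cut 1 (.cut 0 (.cut 1 (.leaf 3) (.cut 0 (.leaf 2) (.leaf 0))) (.leaf 0)) (.cut 0 (.cut 1 (.cut 0 (.leaf 2) (.leaf 0)) (.cut 0 (.leaf 2) (.leaf 0))) (.leaf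 0))) (.leaf 1))) (.leaf 1)) (.leaf 4)) (.leaf 4)) (.leaf 4)), (.cut 1 (.leaf 4) (.cut 1 (.cut 1 (.leaf 4) (.cut 0 (.cut 1 (.leaf 4) (.cut 0 (.cut 1 (.leaf 4) (.cut 0 (.cut 1 (.leaf 4) (.cut 0 (.leaf 2) (.leaf 0))) (.leaf 0))) (.leaf 1))) (.leaf 1))) (.cut 1 (.cut 0 (.cut 1 (.cut 0 (.cut 1 (.cut 0 (.cut 1 (.cut 0 (.leaf 2) (.leaf 0)) (.cut 0 (.leaf 2) (.leaf 0))) (.leaf 0)) (.cut 0 (.cut 1 (.cut 0 (.leaf 2) (.leaf 0)) (.cut 0 (.leaf 2) (.leaf 0))) (.leaf 0))) (.leaf 1)) (.cut 0 (.cut 1 (.cut 0 (.cut 1 (.cut 0 (.leaf 2) (.leaf 0)) (.cut 0 (.leaf 2) (.leaf 0))) (.leaf 0)) (.leaf 3)) (.leaf 1))) (.leaf 1)) (.leaf 3))))],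
  ![(.cut 0 (.cut 1 (.cut 0 (.cut 1 (.cut 0 (.cut 1 (.cut 0 (.cut 1 (.leaf 3) (.cut 0 (.leaf 2) (.leaf 0))) (.leaf 0)) (.cut 0 (.cut 1 (.cut 0 (.leaf 2) (.cut 1 (.leaf 0) (.cut 0 (.cut 1 (.leaf 0) (.leaf 4)) (.cut 1 (.leaf 0) (.leaf 4))))) (.leaf 4)) (.cut 1 (.cut 0 (.cut 1 (.leaf 0) (.cut 0 (.cut 1 (.leaf 0) (.leaf 4)) (.cut 1 (.leaf 0) (.leaf 4)))) (.leaf 1)) (.leaf 4)))) (.leaf 1)) (.leaf 4)) (.leaf 1)) (.leaf 4)) (.leaf 1)), (.leaf 4), (.leaf 4), (.cut 1 (.cut 0 (.cut 1 (.cut 0 (.cut 1 (.cut 0 (.cut 1 (.leaf 3) (.cut 0 (.cut 1 (.cut 0 (.leaf 2) (.leaf 0)) (.cut 0 (.leaf 2) (.leaf 0))) (.leaf 0))) (.leaf 1)) (.leaf 4)) (.leaf 1)) (.leaf 4)) (.leaf 1)) (.leaf 4)), (.cut 1 (.leaf 4) (.cut 0 (.cut 1 (.cut 0 (.cut 1 (.leaf 4) (.cut 0 (.cut 1 (.leaf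 4) (.cut 0 (.cut 1 (.leaf 4) (.cut 0 (.leaf 2) (.leaf 0))) (.leaf 0))) (.leaf 1))) (.leaf 1)) (.cut 0 (.cut 1 (.cut 0 (.cut 1 (.cut 0 (.cut 1 (.cut 0 (.leaf 2) (.leaf 0)) (.cut 0 (.leaf 2) (.leaf 0))) (.leaf 0)) (.cut 0 (.cut 1 (.cut 0 (.leaf 2) (.leaf 0)) (.leaf 3)) (.leaf 0))) (.leaf 1)) (.leaf 3)) (.leaf 1))) (.leaf 1)))],
  ![(.cut 0 (.leaf 1) (.cut 0 (.leaf 1) (.leaf 1))), (.leaf 4), (.leaf 4), (.cut 0 (.leaf 1) (.cut 1 (.cut 0 (.leaf 1) (.leaf 1)) (.leaf 4))), (.cut 0 (.leaf 1) (.cut 1 (.leaf 4) (.cut 0 (.leaf 1) (.leaf 1))))],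
  ![(.leaf 1), (.leaf 1), (.leaf 1), (.leaf 1), (.leaf 1)]]

def xTree_3_5 : Fin 5 → Fin 5 → ACut := ![![(.cut 0 (.leaf 1) (.cut 1 (.leaf 3) (.cut 0 (.leaf 1) (.cut 1 (.leaf 3) (.cut 0 (.cut 1 (.leaf 0) (.leaf 4)) (.cut 1 (.cut 0 (.leaf 0) (.leaf 2)) (.leaf 4))))))), (.cut 0 (.leaf 1) (.cut 0 (.leaf 1) (.cut 1 (.leaf 4) (.cut 0 (.leaf 0) (.cut 1 (.cut 0 (.leaf 0) (.leaf 2)) (.leaf 3)))))), (.cut 0 (.leaf 1) (.cut 1 (.cut 0 (.leaf 1) (.cut 1 (.leaf 4) (.cut 0 (.leaf 0) (.cut 1 (.cut 0 (.leaf 0) (.leaf 2)) (.cut 0 (.leaf 0) (.leaf 2)))))) (.leaf 3))), (.cut 1 (.leaf 3) (.cut 0 (.leaf 1) (.cut 1 (.leaf 3) (.leaf 3)))), (.leaf 3)],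
  ![(.cut 1 (.leaf 3) (.cut 1 (.leaf 3) (.cut 0 (.cut 1 (.cut 0 (.leaf 2) (.cut 1 (.leaf 0) (.cut 0 (.cut 1 (.leaf 0) (.leaf 4)) (.leaf 0)))) (.leaf 4)) (.leaf 1)))), (.cut 0 (.cut 1 (.leaf 4) (.cut 0 (.leaf 2) (.leaf 0))) (.leaf 1)), (.cut 1 (.cut 1 (.leaf 4) (.cut 0 (.cut 1 (.cut 0 (.leaf 2) (.leaf 0)) (.cut 0 (.leaf 2) (.leaf 0))) (.leaf 1))) (.leaf 3)), (.cut 1 (.leaf 3) (.cut 1 (.leaf 3) (.leaf 3))), (.leaf 3)],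
  ![(.cut 0 (.cut 1 (.leaf 3) (.cut 0 (.cut 1 (.leaf 3) (.cut 0 (.leaf 2) (.cut 1 (.leaf 0) (.leaf 4)))) (.leaf 1))) (.leaf 1)), (.cut 0 (.cut 0 (.cut 1 (.leaf 4) (.cut 0 (.leaf 2) (.leaf 0))) (.leaf 1)) (.leaf 1)), (.cut 0 (.cut 1 (.cut 0 (.cut 1 (.leaf 4) (.cut 0 (.leaf 2) (.cut 1 (.cut 0 (.cut 1 (.cut 0 (.cut 1 (.leaf 4) (.leaf 0)) (.cut 1 (.leaf 4) (.leaf 0))) (.leaf 0)) (.cut 1 (.cut 0 (.cut 1 (.leaf 4) (.leaf 0)) (.cut 1 (.leaf 4) (.leaf 0))) (.leaf 0))) (.leaf 0)))) (.leaf 1)) (.leaf 3)) (.leaf 1)), (.cut 1 (.leaf 3) (.cut 0 (.cut 1 (.leaf 3) (.leaf 3)) (.leaf 1))), (.leaf 3)],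
  ![(.cut 0 (.leaf 1) (.cut 0 (.leaf 1) (.leaf 1))), (.cut 0 (.leaf 1) (.cut 0 (.leaf 1) (.leaf 1))), (.cut 0 (.leaf 1) (.cut 0 (.leaf 1) (.leaf 1))), (.cut 0 (.leaf 1) (.cut 1 (.leaf 3) (.cut 0 (.leaf 1) (.leaf 1)))), (.leaf 3)],
  ![(.leaf 1), (.leaf 1), (.leaf 1), (.leaf 1), (.leaf 1)]]

def xTree_6_17 : Fin 5 → Fin 5 → ACut := ![![(.cut 0 (.leaf 1) (.cut 1 (.cut 0 (.cut 1 (.cut 0 (.leaf 1) (.cut 1 (.cut 0 (.cut 1 (.leaf 0) (.leaf 4)) (.leaf 0)) (.leaf 4))) (.leaf 4)) (.cut 1 (.cut 0 (.cut 1 (.cut 0 (.cut 1 (.leaf 0) (.leaf 4)) (.leaf 2)) (.leaf 4)) (.leaf 2)) (.leaf 4))) (.leaf 4))), (.leaf 4), (.leaf 4), (.cut 1 (.cut 0 (.leaf 1) (.cut 1 (.cut 0 (.cut 1 (.cut 0 (.leaf 1) (.cut 1 (.leaf 0) (.leaf 4))) (.leaf 4)) (.cut 1 (.cut 0 (.cut 1 (.cut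 0 (.leaf 0) (.leaf 2)) (.leaf 4)) (.leaf 2)) (.leaf 4))) (.leaf 4))) (.leaf 4)), (.cut 1 (.leaf 4) (.cut 0 (.leaf 1) (.cut 1 (.leaf 4) (.cut 0 (.cut 1 (.leaf 4) (.cut 0 (.leaf 1) (.cut 1 (.cut 0 (.cut 1 (.cut 0 (.leaf 1) (.cut 1 (.leaf 4) (.leaf 0))) (.leaf 0)) (.cut 1 (.cut 0 (.cut 1 (.leaf 4) (.leaf 0)) (.cut 1 (.leaf 4) (.leaf 0))) (.leaf 0))) (.leaf 0)))) (.cut 1 (.leaf 4) (.cut 0 (.cut 1 (.cut 0 (.cut 1 (.cut 0 (.cut 1 (.leaf 4) (.leaf 0)) (.leaf 2)) (.leaf 0)) (.leaf 2)) (.cut 0 (.leaf 0) (.leaf 2))) (.leaf 2)))))))],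
  ![(.cut 1 (.cut 1 (.cut 0 (.leaf 2) (.cut 1 (.cut 0 (.cut 1 (.leaf 0) (.leaf 4)) (.leaf 0)) (.leaf 4))) (.leaf 4)) (.leaf 4)), (.leaf 4), (.leaf 4), (.cut 1 (.cut 1 (.cut 1 (.cut 0 (.leaf 2) (.leaf 0)) (.leaf 4)) (.leaf 4)) (.leaf 4)), (.cut 1 (.leaf 4) (.cut 1 (.leaf 4) (.cut 1 (.leaf 4) (.cut 0 (.leaf 2) (.cut 1 (.cut 0 (.cut 1 (.cut 0 (.leaf 2) (.leaf 0)) (.leaf 0)) (.leaf 0)) (.leaf 0))))))],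
  ![(.cut 0 (.cut 1 (.cut 0 (.leaf 2) (.cut 1 (.cut 0 (.leaf 2) (.cut 1 (.leaf 0) (.leaf 4))) (.leaf 4))) (.leaf 4)) (.cut 1 (.cut 0 (.cut 1 (.cut 0 (.cut 1 (.leaf 0) (.leaf 4)) (.leaf 1)) (.leaf 4)) (.leaf 1)) (.leaf 4))), (.leaf 4), (.leaf 4), (.cut 1 (.cut 0 (.cut 1 (.cut 0 (.leaf 2) (.cut 1 (.cut 0 (.leaf 2) (.leaf 0)) (.leaf 4))) (.leaf 4)) (.cut 1 (.cut 0 (.cut 1 (.leaf 0) (.leaf 4)) (.leaf 1)) (.leaf 4))) (.leaf 4)), (.cut 1 (.leaf 4) (.cut 0 (.cut 1 (.leaf 4) (.cut 0 (.leaf 2) (.cut 1 (.leaf 4) (.cut 0 (.leaf 2) (.cut 1 (.cut 0 (.cut 1 (.cut 0 (.leaf 2) (.cut 1 (.leaf 4) (.leaf 0))) (.leaf 0)) (.cut 1 (.cut 0 (.cut 1 (.leaf 4) (.leaf 0)) (.cut 1 (.leaf 4) (.leaf 0))) (.leaf 0))) (.leaf 0)))))) (.cut 1 (.leaf 4) (.cut 0 (.cut 1 (.leaf 4)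 (.leaf 0)) (.leaf 1)))))],
  ![(.cut 0 (.leaf 1) (.cut 0 (.cut 1 (.cut 0 (.leaf 1) (.leaf 1)) (.leaf 4)) (.leaf 1))), (.leaf 4), (.leaf 4), (.cut 0 (.leaf 1) (.cut 1 (.cut 0 (.cut 1 (.leaf 0) (.leaf 4)) (.leaf 1)) (.leaf 4))), (.cut 0 (.leaf 1) (.cut 1 (.leaf 4) (.cut 0 (.cut 1 (.leaf 4) (.cut 0 (.leaf 1) (.leaf 1))) (.leaf 1))))],
  ![(.leaf 1), (.leaf 1), (.leaf 1), (.leaf 1), (.leaf 1)]]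

def xTree_7_10 : Fin 5 → Fin 5 → ACut := ![![(.cut 0 (.leaf 1) (.cut 1 (.cut 0 (.cut 1 (.leaf 3) (.cut 0 (.leaf 1) (.cut 1 (.leaf 3) (.leaf 0)))) (.leaf 2)) (.cut 0 (.cut 1 (.cut 0 (.leaf 1) (.cut 1 (.cut 0 (.leaf 0) (.leaf 2)) (.leaf 4))) (.leaf 4)) (.leaf 2)))), (.leaf 4), (.cut 0 (.leaf 1) (.cut 1 (.leaf 4) (.cut 0 (.cut 1 (.leaf 4) (.cut 0 (.leaf 1) (.cut 1 (.cut 0 (.leaf 0) (.leaf 2)) (.leaf 0)))) (.leaf 2)))), (.cut 1 (.cut 0 (.leaf 1) (.cut 1 (.leaf 3) (.cut 0 (.cut 1 (.cut 0 (.leaf 1) (.leaf 0)) (.leaf 0)) (.leaf 2)))) (.cut 0 (.leaf 1) (.cut 1 (.leaf 4) (.cut 0 (.leaf 0) (.leaf 2))))), (.cut 1 (.cut 0 (.leaf 1) (.cut 1 (.cut 0 (.leaf 0) (.leaf 2)) (.leaf 3))) (.leaf 3))],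
  ![(.cut 1 (.cut 1 (.leaf 3) (.cut 0 (.leaf 2) (.cut 1 (.leaf 3) (.cut 0 (.leaf 2) (.cut 1 (.leaf 0) (.cut 0 (.leaf 2) (.leaf 0))))))) (.cut 1 (.cut 0 (.leaf 2) (.cut 1 (.cut 0 (.leaf 2) (.cut 1 (.cut 0 (.leaf 2) (.leaf 0)) (.leaf 4))) (.leaf 4))) (.leaf 4))), (.leaf 4), (.cut 1 (.leaf 4) (.cut 1 (.leaf 4) (.cut 0 (.leaf 2) (.cut 1 (.cut 0 (.leaf 2) (.leaf 0)) (.leaf 0))))), (.cut 1 (.cut 1 (.leaf 3) (.cut 1 (.cut 0 (.leaf 2) (.leaf 0)) (.cut 0 (.leaf 2) (.leaf 0)))) (.cut 1 (.leaf 4) (.cut 1 (.leaf 4) (.cut 0 (.leaf 2) (.leaf 0))))), (.cut 1 (.cut 1 (.cut 1 (.cut 0 (.leaf 2) (.leaf 0)) (.leaf 3)) (.leaf 3)) (.leaf 3))],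
  ![(.cut 0 (.leaf 2) (.cut 1 (.cut 0 (.cut 1 (.leaf 3) (.cut 0 (.cut 1 (.leaf 3) (.leaf 0)) (.cut 1 (.leaf 3) (.leaf 0)))) (.leaf 1)) (.cut 0 (.cut 1 (.cut 0 (.cut 1 (.cut 0 (.cut 1 (.cut 0 (.leaf 2) (.leaf 0)) (.leaf 4)) (.cut 1 (.leaf 0) (.leaf 4))) (.leaf 4)) (.cut 1 (.cut 0 (.cut 1 (.leaf 0) (.leaf 4)) (.leaf 1)) (.leaf 4))) (.leaf 4)) (.leaf 1)))), (.leaf 4), (.cut 0 (.leaf 2) (.cut 1 (.leaf 4) (.cut 0 (.cut 1 (.leaf 4) (.leaf 0)) (.leaf 1)))), (.cut 1 (.cut 0 (.leaf 2) (.cut 1 (.leaf 3) (.leaf 0))) (.cut 0 (.leaf 2) (.leaf 0))), (.cut 1 (.cut 0 (.leaf 2) (.cut 1 (.cut 0 (.leaf 0) (.leaf 1)) (.leaf 3))) (.leaf 3))],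
  ![(.cut 0 (.leaf 1) (.cut 0 (.cut 1 (.cut 0 (.cut 1 (.leaf 3) (.leaf 0)) (.cut 1 (.leaf 3) (.leaf 0))) (.cut 0 (.cut 1 (.cut 0 (.cut 1 (.leaf 0) (.leaf 4)) (.cut 1 (.leaf 0) (.leaf 4))) (.leaf 4)) (.cut 1 (.cut 0 (.cut 1 (.leaf 0) (.leaf 4)) (.cut 1 (.leaf 0) (.leaf 4))) (.leaf 4)))) (.cut 1 (.cut 0 (.cut 1 (.leaf 3) (.leaf 0)) (.leaf 1)) (.cut 0 (.cut 1 (.cut 0 (.cut 1 (.leaf 0) (.leaf 4)) (.leaf 1)) (.leaf 4)) (.leaf 1))))), (.leaf 4), (.cut 0 (.leaf 1) (.cut 0 (.cut 1 (.leaf 4) (.leaf 0)) (.cut 1 (.leaf 4) (.leaf 0)))), (.cut 0 (.leaf 1) (.cut 1 (.cut 0 (.cut 1 (.leaf 3) (.leaf 0)) (.cut 1 (.leaf 3) (.leaf 0))) (.leaf 0))), (.cut 0 (.leaf 1) (.cut 1 (.cut 0 (.leaf 0) (.cut 1 (.cut 0 (.leaf 0) (.leaf 1)) (.leaf 3))) (.leaf 3)))],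
  ![(.leaf 1), (.leaf 1), (.leaf 1), (.leaf 1), (.leaf 1)]]

def xTree_9_12 : Fin 5 → Fin 5 → ACut := ![![(.cut 0 (.cut 1 (.cut 0 (.leaf 1) (.cut 1 (.leaf 3) (.cut 0 (.leaf 1) (.cut 1 (.leaf 0) (.leaf 4))))) (.leaf 4)) (.cut 1 (.cut 0 (.cut 1 (.leaf 3) (.cut 0 (.leaf 0) (.leaf 2))) (.leaf 2)) (.leaf 4))), (.leaf 4), (.leaf 4), (.cut 1 (.cut 0 (.cut 1 (.cut 0 (.leaf 1) (.cut 1 (.leaf 3) (.cut 0 (.leaf 1) (.leaf 0)))) (.cut 0 (.leaf 1) (.cut 1 (.cut 0 (.leaf 1) (.leaf 0)) (.leaf 4)))) (.cut 1 (.cut 0 (.leaf 0) (.leaf 2)) (.cut 0 (.cut 1 (.cut 0 (.leaf 0) (.leaf 2)) (.leaf 4)) (.leaf 2)))) (.leaf 4)), (.cut 1 (.cut 0 (.cut 1 (.leaf 4) (.cut 0 (.leaf 1) (.cut 1 (.leaf 0) (.cut 0 (.leaf 1) (.leaf 0))))) (.cut 1 (.leaf 4) (.cut 0 (.cut 1 (.cut 0 (.leaf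 0) (.leaf 2)) (.leaf 0)) (.leaf 2)))) (.cut 0 (.cut 1 (.cut 0 (.leaf 1) (.cut 1 (.cut 0 (.leaf 1) (.leaf 0)) (.leaf 3))) (.leaf 3)) (.cut 1 (.cut 0 (.leaf 0) (.leaf 2)) (.leaf 3))))],
  ![(.leaf 2), (.leaf 2), (.leaf 2), (.leaf 2), (.leaf 2)],
  ![(.cut 0 (.leaf 2) (.cut 1 (.cut 0 (.leaf 2) (.leaf 0)) (.leaf 4))), (.leaf 4), (.leaf 4), (.cut 1 (.cut 0 (.leaf 2) (.cut 1 (.leaf 0) (.leaf 0))) (.leaf 4)), (.cut 1 (.cut 0 (.leaf 2) (.leaf 0)) (.cut 0 (.leaf 2) (.leaf 0)))],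
  ![(.cut 0 (.cut 0 (.leaf 1) (.cut 1 (.cut 0 (.leaf 1) (.leaf 0)) (.leaf 4))) (.cut 0 (.leaf 2) (.cut 1 (.cut 0 (.cut 1 (.leaf 3) (.cut 0 (.leaf 2) (.cut 1 (.leaf 0) (.leaf 4)))) (.leaf 0)) (.leaf 4)))), (.leaf 4), (.leaf 4), (.cut 0 (.cut 1 (.cut 0 (.leaf 1) (.cut 1 (.cut 0 (.leaf 1) (.leaf 0)) (.cut 0 (.leaf 1) (.leaf 0)))) (.leaf 4)) (.cut 1 (.cut 0 (.leaf 2) (.cut 1 (.leaf 0) (.leaf 0))) (.leaf 4))), (.cut 0 (.cut 1 (.cut 0 (.leaf 1) (.leaf 0)) (.cut 0 (.leaf 1) (.leaf 0))) (.cut 1 (.cut 0 (.leaf 2) (.leaf 0)) (.cut 0 (.leaf 2) (.leaf 0))))],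
  ![(.leaf 1), (.leaf 1), (.leaf 1), (.leaf 1), (.leaf 1)]]

def xTree_9_17 : Fin 5 → Fin 5 → ACut := ![![(.cut 0 (.cut 1 (.cut 0 (.leaf 1) (.cut 1 (.cut 0 (.leaf 1) (.leaf 0)) (.leaf 4))) (.leaf 4)) (.cut 1 (.cut 0 (.cut 1 (.cut 0 (.leaf 0) (.leaf 2)) (.leaf 4)) (.leaf 2)) (.leaf 4))), (.leaf 4), (.leaf 4), (.cut 1 (.cut 0 (.cut 1 (.cut 0 (.leaf 1) (.cut 1 (.leaf 0) (.leaf 4))) (.leaf 4)) (.cut 1 (.cut 0 (.cut 1 (.cut 0 (.leaf 0) (.leaf 2)) (.leaf 4)) (.leaf 2)) (.leaf 4))) (.leaf 4)), (.cut 1 (.leaf 4) (.cut 0 (.cut 1 (.leaf 4) (.cut 0 (.leaf 1) (.cut 1 (.leaf 4) (.leaf 0)))) (.cut 1 (.leaf 4) (.cut 0 (.cut 1 (.leaf 4) (.cut 0 (.leaf 0) (.leaf 2))) (.leaf 2)))))],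
  ![(.leaf 2), (.leaf 2), (.leaf 2), (.leaf 2), (.leaf 2)],
  ![(.cut 0 (.leaf 2) (.cut 1 (.cut 0 (.leaf 2) (.cut 1 (.leaf 0) (.leaf 4))) (.leaf 4))), (.leaf 4), (.leaf 4), (.cut 1 (.cut 0 (.leaf 2) (.cut 1 (.cut 0 (.leaf 2) (.leaf 0)) (.leaf 4))) (.leaf 4)), (.cut 1 (.leaf 4) (.cut 0 (.leaf 2) (.cut 1 (.leaf 4) (.cut 0 (.leaf 2) (.cut 1 (.leaf 4) (.leaf 0))))))],
  ![(.cut 0 (.cut 0 (.leaf 1) (.cut 1 (.cut 0 (.leaf 1) (.cut 1 (.leaf 0) (.leaf 4))) (.leaf 4))) (.cut 0 (.leaf 2) (.cut 1 (.cut 0 (.cut 1 (.leaf 0) (.leaf 4)) (.cut 1 (.leaf 0) (.leaf 4))) (.leaf 4)))), (.leaf 4), (.leaf 4), (.cut 0 (.cut 1 (.cut 0 (.leaf 1) (.cut 1 (.leaf 0) (.leaf 4))) (.leaf 4)) (.cut 1 (.cut 0 (.leaf 2) (.cut 1 (.leaf 0) (.leaf 4))) (.leaf 4))), (.cut 0 (.cut 1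 (.leaf 4) (.cut 0 (.leaf 1) (.cut 1 (.leaf 4) (.cut 0 (.leaf 1) (.cut 1 (.leaf 4) (.leaf 0)))))) (.cut 1 (.leaf 4) (.cut 0 (.leaf 2) (.cut 1 (.leaf 4) (.cut 0 (.cut 1 (.leaf 4) (.leaf 0)) (.cut 1 (.leaf 4) (.leaf 0)))))))],
  ![(.leaf 1), (.leaf 1), (.leaf 1), (.leaf 1), (.leaf 1)]]

/-- The checks of this file, one after another. -/
theorem xChecks_13 :
    xCellOK 0 1 xTree_0_1 = true ∧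
    xCellOK 1 15 xTree_1_15 = true ∧
    xCellOK 3 5 xTree_3_5 = true ∧
    xCellOK 6 17 xTree_6_17 = true ∧
    xCellOK 7 10 xTree_7_10 = true ∧
    xCellOK 9 12 xTree_9_12 = true ∧
    xCellOK 9 17 xTree_9_17 = true :=
  ⟨by decide +kernel,
    by decide +kernel,
    by decide +kernel,
    by decide +kernel,
    by decide +kernel,
    by decide +kernel,
    by decide +kernel⟩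

theorem xCell_0_1 : xCellOK 0 1 xTree_0_1 = true :=
  xChecks_13.1

theorem xCell_1_15 : xCellOK 1 15 xTree_1_15 = true :=
  xChecks_13.2.1

theorem xCell_3_5 : xCellOK 3 5 xTree_3_5 = true :=
  xChecks_13.2.2.1

theorem xCell_6_17 : xCellOK 6 17 xTree_6_17 = true :=
  xChecks_13.2.2.2.1

theorem xCell_7_10 : xCellOK 7 10 xTree_7_10 = true :=
  xChecks_13.2.2.2.2.1

theorem xCell_9_12 : xCellOK 9 12 xTree_9_12 = true :=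
  xChecks_13.2.2.2.2.2.1

theorem xCell_9_17 : xCellOK 9 17 xTree_9_17 = true :=
  xChecks_13.2.2.2.2.2.2

end Vale.Agent.P154.Ferro4
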